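import Vale.Agent.P216J57.St
import Vale.Agent.P216I63.Br

/-!
P216: the definitions for a general model agree with those for the model `E`.
-/

open Manifold Set
open scoped ContDiff

namespace Vale.Agent.P216J

variable {E M : Type} [NormedAddCommGroup E] [NormedSpace ℝ E] [FiniteDimensional ℝ E]
  [TopologicalSpace M] [ChartedSpace E M] [IsManifold 𝓘(ℝ, E) ∞ M]

omit [FiniteDimensional ℝ E] [IsManifold 𝓘(ℝ, E) ∞ M] in
theorem vel_eq (γ : ℝ → M) : vel 𝓘(ℝ, E) γ = P255L.vel E univ γ := by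
  funext t
  unfold P255L.vel
  rw [mfderivWithin_univ]
  rfl

omit [FiniteDimensional ℝ E] in
theorem covD_eq (cov : Conn 𝓘(ℝ, E) M) (γ : ℝ → M) (J : Along 𝓘(ℝ, E) γ) :
    covD cov γ J = P255L.covD cov univ γ J := by
  funext t
  unfold covD P255L.covD
  rw [derivWithin_univ, vel_eq]
  rfl

theorem lc_iff (g : RMetric 𝓘(ℝ, E) M) (cov : Conn 𝓘(ℝ, E) M) :
    IsLeviCivita g cov ↔ P255L.IsLeviCivita g cov :=
  ⟨fun h => ⟨cov.torsion_eq_zero_iff.2 fun hX hY => h.1 _ _ _ hX hY, h.2⟩,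
    fun h => ⟨fun _ _ _ hX hY => cov.torsion_eq_zero_iff.1 h.1 hX hY, h.2⟩⟩

theorem many (h : ∀ g : RMetric 𝓘(ℝ, E) M, (P216Z57.images g).Infinite) :
    InfinitelyMany 𝓘(ℝ, E) M := by
  intro g cov hc
  refine (P216I.many (h g) cov ((lc_iff g cov).1 hc)).mono ?_
  rintro _ ⟨c, τ, ⟨h1, h2, h3⟩, rfl⟩
  refine ⟨c, τ, ⟨h1, fun t => ?_, h3⟩, rfl⟩
  rw [covD_eq, vel_eq]
  exact h2.2 t trivial

theorem sound [CompactSpace M] [T2Space M] : Sound 𝓘(ℝ, E) M := by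
  intro g
  obtain ⟨⟨cov₀, h0, h1⟩, h2⟩ := P216I.sound g
  refine ⟨⟨cov₀, (lc_iff g _).2 h0, h1⟩, fun cov hc => ?_⟩
  obtain ⟨h3, h4⟩ := h2 cov ((lc_iff g _).1 hc)
  refine ⟨fun γ => ⟨fun J K hJ hK t => ?_, fun hγ X t hX => ?_⟩, fun cov' hc' Y p hY v => ?_⟩
  · simp only [covD_eq]
    obtain ⟨a, b, -⟩ := h3 γ J K hJ.mdifferentiableOn hK.mdifferentiableOn t
    exact ⟨a, b⟩
  · have h5 : DiffAlong (I := 𝓘(ℝ, E)) γ fun _ => 0 :=
      (Bundle.mdifferentiable_zeroSection (IB := 𝓘(ℝ, E)) (F := E) ℝ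
        (TangentSpace 𝓘(ℝ, E) : M → Type)).comp hγ
    rw [covD_eq, vel_eq]
    exact (h3 γ _ _ h5.mdifferentiableOn h5.mdifferentiableOn t).2.2 X hX
  · unfold nab
    rw [h4 cov' ((lc_iff g _).1 hc') Y p hY]

end Vale.Agent.P216J
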