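import Mathlib.Geometry.Manifold.VectorBundle.CovariantDerivative.Torsion
import Mathlib.Geometry.Manifold.VectorBundle.Riemannian
import Mathlib.Geometry.Manifold.Instances.Sphere
import Mathlib.Analysis.Calculus.Deriv.Basic

/-!
# P216: closed geodesics of the Levi-Civita connection. Only definitions.
-/

open Bundle Manifold FiberBundle Set
open scoped ContDiff

namespace Vale.Agent.P216J

noncomputable section

/-- The unit sphere `S^n` of `ℝ^(n+1)`. -/
abbrev Sph (n : ℕ) : Type := Metric.sphere (0 : EuclideanSpace ℝ (Fin (n + 1))) 1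

/-- The value `L v` of a continuous linear map. -/
def app {W F : Type} [AddCommMonoid W] [Module ℝ W] [TopologicalSpace W] [AddCommMonoid F]
    [Module ℝ F] [TopologicalSpace F] (L : W →L[ℝ] F) (v : W) : F := L v

/-- On the sections `J` with `P J`, the operator `D` is additive and obeys the Leibniz rule. -/
def Leibniz {V : ℝ → Type} [∀ t, AddCommGroup (V t)] [∀ t, Module ℝ (V t)]
    (P : ((t : ℝ) → V t) → Prop) (D : ((t : ℝ) → V t) → (t : ℝ) → V t) : Prop :=
  ∀ J K, P J → P K → ∀ t, D (fun s => J s + K s) t = D J t + D K t ∧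
    ∀ (f : ℝ → ℝ) (f' : ℝ), HasDerivAt f f' t → D (fun s => f s • J s) t = f' • J t + f t • D J t

variable {E H : Type} [NormedAddCommGroup E] [NormedSpace ℝ E] [TopologicalSpace H]
  (I : ModelWithCorners ℝ E H) (M : Type) [TopologicalSpace M] [ChartedSpace H M]

/-- Vector fields. -/
abbrev Vec : Type := (p : M) → TangentSpace I p

variable {M}

/-- Vector fields along the curve `γ`. -/
abbrev Along (γ : ℝ → M) : Type := (t : ℝ) → TangentSpace I (γ t)

/-- The differential of `f` at `p`, applied to `v`. -/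
def tmap {E' H' : Type} [NormedAddCommGroup E'] [NormedSpace ℝ E'] [TopologicalSpace H']
    (I' : ModelWithCorners ℝ E' H') {M' : Type} [TopologicalSpace M'] [ChartedSpace H' M']
    (f : M → M') (p : M) (v : TangentSpace I p) : TangentSpace I' (f p) :=
  app (mfderiv I I' f p) v

/-- The velocity of `γ`. -/
def vel (γ : ℝ → M) : Along I γ := fun t => tmap 𝓘(ℝ, ℝ) I γ t (1 : ℝ)

/-- The derivative of the function `f` in the direction `v`. -/
def dir (f : M → ℝ) (p : M) (v : TangentSpace I p) : ℝ := tmap I 𝓘(ℝ, ℝ) f p v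

variable [IsManifold I ∞ M]

variable (M) in
/-- Smooth Riemannian metrics. -/
abbrev RMetric : Type := ContMDiffRiemannianMetric I ∞ E (fun x : M => TangentSpace I x)

variable (M) in
/-- Connections on the tangent bundle. -/
abbrev Conn : Type := CovariantDerivative I E (TangentSpace I : M → Type)

variable {I}

/-- The scalar product `g_p(v, w)`. -/
def ip (g : RMetric I M) (p : M) (v w : TangentSpace I p) : ℝ := app (app (g.inner p) v) w

/-- `∇_v Y`. -/
def nab (cov : Conn I M) (Y : Vec I M) (p : M) (v : TangentSpace I p) : TangentSpace I p :=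
  app (cov Y p) v

/-- The field `X` is differentiable at `p`. -/
def DiffAt (X : Vec I M) (p : M) : Prop :=
  MDifferentiableAt I I.tangent (fun q => (⟨q, X q⟩ : TangentBundle I M)) p

/-- `t ↦ (γ t, J t)` is differentiable, as a map to the tangent bundle. -/
def DiffAlong (γ : ℝ → M) (J : Along I γ) : Prop :=
  MDifferentiable 𝓘(ℝ, ℝ) I.tangent (fun t => (⟨γ t, J t⟩ : TangentBundle I M))

/-- The covariant derivative along `γ`: for `J = Σ Jᵏ ∂ₖ` in the coordinate frame at `γ t`,
`D_t J = Σ (Jᵏ)' ∂ₖ + Σ Jᵏ ∇_γ' ∂ₖ`. -/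
def covD (cov : Conn I M) (γ : ℝ → M) (J : Along I γ) : Along I γ := fun t =>
  (trivializationAt E (TangentSpace I) (γ t)).symm (γ t)
      (deriv (fun s => (trivializationAt E (TangentSpace I) (γ t) ⟨γ s, J s⟩).2) t)
    + nab cov (extend E (J t)) (γ t) (vel I γ t)

/-- A prime closed geodesic: a smooth nonconstant curve `c : ℝ → M` with `D_t c' = 0` and with
least period `τ > 0`. -/
def IsPrimeClosed (cov : Conn I M) (c : ℝ → M) (τ : ℝ) : Prop :=
  ContMDiff 𝓘(ℝ, ℝ) I ∞ c ∧ (∀ t, covD cov c (vel I c) t = 0) ∧ (∃ s t, c s ≠ c t) ∧ 0 < τ ∧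
    Function.Periodic c τ ∧ ∀ σ : ℝ, 0 < σ → σ < τ → ¬ Function.Periodic c σ

/-- The set of the images of the prime closed geodesics. -/
def images (cov : Conn I M) : Set (Set M) := {S | ∃ c τ, IsPrimeClosed cov c τ ∧ S = range c}

/-- `covD` is the covariant derivative along curves: additive, Leibniz rule, and
`D_t (X ∘ γ) = ∇_γ' X`. -/
def Rules (cov : Conn I M) : Prop :=
  ∀ γ : ℝ → M, Leibniz (DiffAlong γ) (covD cov γ) ∧ (MDifferentiable 𝓘(ℝ, ℝ) I γ →
    ∀ (X : Vec I M) (t : ℝ), DiffAt X (γ t) →
      covD cov γ (fun s => X (γ s)) t = nab cov X (γ t) (vel I γ t))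

/-- Levi-Civita connection of `g`: torsion free and compatible with `g`. -/
structure IsLeviCivita (g : RMetric I M) (cov : Conn I M) : Prop where
  torsion : ∀ (X Y : Vec I M) (p : M), DiffAt X p → DiffAt Y p →
    nab cov Y p (X p) - nab cov X p (Y p) = VectorField.mlieBracket I X Y p
  metric : ∀ (Y Z : Vec I M) (p : M), DiffAt Y p → DiffAt Z p → ∀ v : TangentSpace I p,
    dir I (fun q => ip g q (Y q) (Z q)) p v =
      ip g p (nab cov Y p v) (Z p) + ip g p (Y p) (nab cov Z p v)

variable (I M)

/-- Every metric has a smooth Levi-Civita connection, any two agree on differentiable fields,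
and `covD` obeys the rules above. -/
def Sound : Prop := ∀ g : RMetric I M,
  (∃ cov : Conn I M, IsLeviCivita g cov ∧ cov.ContMDiffCovariantDerivative ∞) ∧
    ∀ cov : Conn I M, IsLeviCivita g cov → Rules cov ∧ ∀ cov' : Conn I M, IsLeviCivita g cov' →
      ∀ (Y : Vec I M) (p : M), DiffAt Y p → ∀ v, nab cov' Y p v = nab cov Y p v

/-- Every metric on `M` has infinitely many prime closed geodesics with pairwise distinct
images. -/
def InfinitelyMany : Prop :=
  ∀ (g : RMetric I M) (cov : Conn I M), IsLeviCivita g cov → (images cov).Infinite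

end

end Vale.Agent.P216J
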